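import Vale.Agent.Lib.Helper3.P302Inst

/-!
Glue lemma for bin packing instances all of whose items are larger than a quarter
of the bin: a packing of `3 k + 2` sorted items into `k + 1` bins yields `k` pairwise
disjoint triples of total weight at most the capacity covering exactly the `3 k`
smallest indices.
-/

namespace Vale.Agent.Lib.Helper9.P302Glue

open Finset
open Vale.Agent.Lib.Helper3.BinPacking

/-- The rank of `u` relative to `U`: the number of elements of `U` below `u`. -/
def rk (U : Finset ℕ) (u : ℕ) : ℕ := (U.filter (fun v => v < u)).card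

theorem rk_le (U : Finset ℕ) (u : ℕ) : rk U u ≤ u := by
  unfold rk
  have h : U.filter (fun v => v < u) ⊆ Finset.range u := by
    intro v hv
    simp only [mem_filter] at hv
    exact mem_range.mpr hv.2
  simpa using card_le_card h

theorem rk_lt (U : Finset ℕ) {u v : ℕ} (hu : u ∈ U) (huv : u < v) : rk U u < rk U v := by
  unfold rk
  apply card_lt_card
  have hsub : U.filter (fun w => w < u) ⊆ U.filter (fun w => w < v) := by
    intro w hw
    simp only [mem_filter] at hw ⊢
    exact ⟨hw.1, lt_trans hw.2 huv⟩
  rw [ssubset_iff_of_subset hsub]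
  exact ⟨u, by simp [hu, huv], by simp⟩

theorem rk_injOn (U : Finset ℕ) : Set.InjOn (rk U) (U : Set ℕ) := by
  intro u hu v hv h
  rcases lt_trichotomy u v with h1 | h1 | h1
  · exact absurd h (ne_of_lt (rk_lt U hu h1))
  · exact h1
  · exact absurd h (ne_of_gt (rk_lt U hv h1))

theorem rk_image (U : Finset ℕ) : U.image (rk U) = Finset.range U.card := by
  apply eq_of_subset_of_card_le
  · intro x hx
    rw [mem_image] at hx
    obtain ⟨u, hu, rfl⟩ := hx
    rw [mem_range]
    unfold rk
    apply card_lt_card
    rw [ssubset_iff_of_subset (filter_subset _ _)]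
    exact ⟨u, hu, by simp⟩
  · rw [card_range, card_image_of_injOn (rk_injOn U)]

/-- Any packing of `n = 3 k + 2` items with sorted integer weights `ws`, each larger than
a quarter of the capacity `C`, into `k + 1` bins yields `k` pairwise disjoint triples of
weight at most `C` whose union is the set of the `3 k` smallest indices. -/
theorem packable_of_packing (n k C : ℕ) (ws : List ℕ) (hlen : ws.length = n)
    (hn : n = 3 * k + 2)
    (hsorted : ws.Pairwise (fun x y => x ≤ y)) (hbig : ∀ w, w ∈ ws → C < 4 * w) (hC : 0 < C)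
    (a : Fin n → ℚ) (ha : ∀ i, a i = (ws.getD (i : ℕ) 0 : ℚ) / (C : ℚ))
    (h : ∃ f : Fin n → Fin (k + 1), IsPacking a (k + 1) f) :
    Packable (fun i => ws.getD i 0) C (Finset.range (3 * k)) := by
  obtain ⟨f, hf⟩ := h
  set wt : ℕ → ℕ := fun i => ws.getD i 0 with hwt
  have hmono : ∀ i j, i ≤ j → j < n → wt i ≤ wt j := by
    intro i j hij hj
    rcases Nat.eq_or_lt_of_le hij with h1 | h1
    · rw [h1]
    · have hi : i < ws.length := by omega
      have hj' : j < ws.length := by omega
      simp only [hwt]
      rw [List.getD_eq_getElem _ _ hi, List.getD_eq_getElem _ _ hj']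
      exact (List.pairwise_iff_getElem.mp hsorted) i j hi hj' h1
  have hbig' : ∀ i, i < n → C < 4 * wt i := by
    intro i hi
    have hi' : i < ws.length := by omega
    apply hbig
    simp only [hwt]
    rw [List.getD_eq_getElem _ _ hi']
    exact List.getElem_mem hi'
  set F : Fin (k + 1) → Finset (Fin n) := fun b => univ.filter (fun i => f i = b) with hF
  set T : Fin (k + 1) → Finset ℕ := fun b => (F b).map Fin.valEmbedding with hT
  have hsum : ∀ b, ∑ i ∈ F b, wt (i : ℕ) ≤ C := by
    intro b
    have h3 : ∑ i ∈ F b, a i ≤ 1 := hf b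
    have h2 : ∑ i ∈ F b, a i = ((∑ i ∈ F b, wt (i : ℕ) : ℕ) : ℚ) / (C : ℚ) := by
      rw [Nat.cast_sum, Finset.sum_div]
      apply Finset.sum_congr rfl
      intro i _
      rw [ha i]
    have hC' : (0 : ℚ) < (C : ℚ) := by exact_mod_cast hC
    rw [h2, div_le_one hC'] at h3
    exact_mod_cast h3
  have hcard : ∀ b, (F b).card ≤ 3 := by
    intro b
    have h1 : (F b).card • (C + 1) ≤ ∑ i ∈ F b, 4 * wt (i : ℕ) := by
      apply Finset.card_nsmul_le_sum
      intro i _
      have := hbig' i i.2
      omega
    rw [← Finset.mul_sum] at h1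
    have h2 := hsum b
    by_contra hcon
    have hcon' : 4 ≤ (F b).card := by omega
    have h3 : 4 * (C + 1) ≤ (F b).card * (C + 1) := Nat.mul_le_mul_right _ hcon'
    simp only [smul_eq_mul] at h1
    omega
  have htot : ∑ b, (F b).card = n := by
    have h1 := Finset.card_eq_sum_card_fiberwise (s := (univ : Finset (Fin n)))
      (t := (univ : Finset (Fin (k + 1)))) (f := f) (fun x _ => mem_univ _)
    rw [Finset.card_univ, Fintype.card_fin] at h1
    exact h1.symm
  have hk : k ≤ (univ.filter (fun b : Fin (k + 1) => (F b).card = 3)).card := by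
    have h1 : ∑ b, (F b).card ≤ ∑ b : Fin (k + 1), (2 + if (F b).card = 3 then 1 else 0) := by
      apply Finset.sum_le_sum
      intro b _
      have := hcard b
      split_ifs with h3 <;> omega
    rw [Finset.sum_add_distrib, Finset.sum_boole, htot] at h1
    simp only [Finset.sum_const, Finset.card_univ, Fintype.card_fin, smul_eq_mul,
      Nat.cast_id] at h1
    omega
  obtain ⟨S, hSsub, hScard⟩ := Finset.exists_subset_card_eq hk
  have hS3' : ∀ b ∈ S, (T b).card = 3 := by
    intro b hb
    have h1 := hSsub hb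
    simp only [mem_filter, mem_univ, true_and] at h1
    simp only [hT, card_map]
    exact h1
  have hTdisj : ∀ b b', b ≠ b' → Disjoint (T b) (T b') := by
    intro b b' hbb
    simp only [hT]
    rw [Finset.disjoint_map]
    simp only [hF]
    rw [Finset.disjoint_filter]
    intro x _ h1 h2
    exact hbb (h1.symm.trans h2)
  set U : Finset ℕ := S.biUnion T with hU
  have hUcard : U.card = 3 * k := by
    rw [hU, Finset.card_biUnion (fun b _ b' _ hbb => hTdisj b b' hbb),
      Finset.sum_congr rfl hS3']
    simp only [Finset.sum_const, smul_eq_mul, hScard]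
    ring
  have hTU : ∀ b ∈ S, T b ⊆ U := fun b hb => Finset.subset_biUnion_of_mem T hb
  have hTlt : ∀ b, ∀ j ∈ T b, j < n := by
    intro b j hj
    simp only [hT, mem_map, Fin.valEmbedding_apply] at hj
    obtain ⟨i, _, rfl⟩ := hj
    exact i.2
  have hTsum : ∀ b, ∑ j ∈ T b, wt j ≤ C := by
    intro b
    simp only [hT]
    rw [Finset.sum_map]
    exact hsum b
  have hinj : ∀ b ∈ S, Set.InjOn (rk U) (T b : Set ℕ) := by
    intro b hb
    apply (rk_injOn U).mono
    exact_mod_cast hTU b hb
  refine ⟨S.image (fun b => (T b).image (rk U)), ?_, ?_, ?_⟩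
  · intro T' hT'
    rw [mem_image] at hT'
    obtain ⟨b, hb, rfl⟩ := hT'
    refine ⟨?_, ?_⟩
    · rw [card_image_of_injOn (hinj b hb)]
      exact hS3' b hb
    · rw [Finset.sum_image (hinj b hb)]
      refine le_trans (Finset.sum_le_sum ?_) (hTsum b)
      intro j hj
      exact hmono _ _ (rk_le U j) (hTlt b j hj)
  · intro T1 hT1 T2 hT2 hne
    rw [mem_image] at hT1 hT2
    obtain ⟨b1, hb1, rfl⟩ := hT1
    obtain ⟨b2, hb2, rfl⟩ := hT2
    have hbb : b1 ≠ b2 := by
      rintro rfl
      exact hne rfl
    rw [Finset.disjoint_left]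
    intro x hx1 hx2
    rw [mem_image] at hx1 hx2
    obtain ⟨u1, hu1, rfl⟩ := hx1
    obtain ⟨u2, hu2, h12⟩ := hx2
    have h21 : u2 = u1 := rk_injOn U (hTU b2 hb2 hu2) (hTU b1 hb1 hu1) h12
    rw [h21] at hu2
    exact Finset.disjoint_left.mp (hTdisj b1 b2 hbb) hu1 hu2
  · rw [Finset.image_biUnion]
    have h1 : (S.biUnion fun b => id ((T b).image (rk U))) = U.image (rk U) := by
      rw [hU, Finset.biUnion_image]
      rfl
    rw [h1, rk_image, hUcard]

end Vale.Agent.Lib.Helper9.P302Glue
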