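import Vale.Agent.Lib.Helper9.P302Glue

/-!
The glue lemma applied to the 65-item instance.
-/

namespace Vale.Agent.Lib.Helper9.P302Glue

open Finset
open Vale.Agent.Lib.Helper3.BinPacking

theorem wts_sorted : wts.Pairwise (fun x y => x ≤ y) := by
  decide

theorem wts_big : ∀ w, w ∈ wts → cap < 4 * w := by
  decide

theorem wts_le_cap : ∀ w, w ∈ wts → w ≤ cap := by
  decide

theorem wts_getD_mem (i : Fin 65) : wts.getD (i : ℕ) 0 ∈ wts := by
  have hi : (i : ℕ) < wts.length := i.2
  rw [List.getD_eq_getElem _ _ hi]
  exact List.getElem_mem hi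

theorem inst_pos (i : Fin 65) : 0 < inst i := by
  have h1 := wts_big _ (wts_getD_mem i)
  have h2 : 0 < wts.getD (i : ℕ) 0 := by
    have hc : 0 < cap := by decide
    omega
  unfold inst
  have h3 : (0 : ℚ) < (wts.getD (i : ℕ) 0 : ℚ) := by exact_mod_cast h2
  have h4 : (0 : ℚ) < (cap : ℚ) := by
    have hc : 0 < cap := by decide
    exact_mod_cast hc
  exact div_pos h3 h4

theorem inst_le_one (i : Fin 65) : inst i ≤ 1 := by
  have h1 := wts_le_cap _ (wts_getD_mem i)
  unfold inst
  have h4 : (0 : ℚ) < (cap : ℚ) := by
    have hc : 0 < cap := by decide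
    exact_mod_cast hc
  rw [div_le_one h4]
  exact_mod_cast h1

/-- The 65-item instance: a packing into 22 bins would give 21 pairwise disjoint triples of
weight at most the capacity covering exactly the 63 smallest indices. -/
theorem inst_packable_of_packing (h : ∃ f : Fin 65 → Fin 22, IsPacking inst 22 f) :
    Packable (fun i => wts.getD i 0) cap (Finset.range 63) :=
  packable_of_packing 65 21 cap wts rfl rfl wts_sorted wts_big (by decide) inst
    (fun _ => rfl) h

/-- If the 63 smallest items cannot be split into 21 triples of weight at most the capacity,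
then the instance needs at least 23 bins. -/
theorem opt_inst_ge
    (hnp : ¬ Packable (fun i => wts.getD i 0) cap (Finset.range 63)) : 23 ≤ opt inst :=
  succ_le_opt inst inst_le_one 22 (fun h => hnp (inst_packable_of_packing h))

end Vale.Agent.Lib.Helper9.P302Glue
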